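import Vale.Agent.P036.Params

namespace Vale.Agent.Results.P036.PowerLowerBound

/-- Area of the triangle `pqr` in the plane: half the absolute value of `det (q - p, r - p)`. -/
noncomputable def area (p q r : ℝ × ℝ) : ℝ :=
  |(q.1 - p.1) * (r.2 - p.2) - (q.2 - p.2) * (r.1 - p.1)| / 2

/-- The minimum area of a triangle spanned by three distinct points of `P`. -/
noncomputable def minArea (P : Finset (ℝ × ℝ)) : ℝ :=
  sInf {a : ℝ | ∃ p ∈ P, ∃ q ∈ P, ∃ r ∈ P, p ≠ q ∧ p ≠ r ∧ q ≠ r ∧ a = area p q r}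

/-- Heilbronn's function: the largest value of `minArea P` over `n`-point subsets `P` of the
unit square. -/
noncomputable def heilbronn (n : ℕ) : ℝ :=
  sSup {d : ℝ | ∃ P : Finset (ℝ × ℝ),
    (∀ p ∈ P, p.1 ∈ Set.Icc (0 : ℝ) 1 ∧ p.2 ∈ Set.Icc (0 : ℝ) 1) ∧ P.card = n ∧ d = minArea P}

theorem result :
    (∃ η : ℝ, 0 < η ∧ ∃ c : ℝ, 0 < c ∧ ∀ n : ℕ, 3 ≤ n →
      (∃ P : Finset (ℝ × ℝ), P.card = n ∧
        (∀ p ∈ P, p.1 ∈ Set.Icc (0 : ℝ) 1 ∧ p.2 ∈ Set.Icc (0 : ℝ) 1) ∧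
        ∀ p ∈ P, ∀ q ∈ P, ∀ r ∈ P, p ≠ q → p ≠ r → q ≠ r →
          c * (n : ℝ) ^ (-2 + η) ≤ area p q r) ∧
      c * (n : ℝ) ^ (-2 + η) ≤ heilbronn n) ∧
    ¬ (∀ ε : ℝ, 0 < ε → ∃ C : ℝ, ∃ n₀ : ℕ, ∀ n : ℕ, n₀ ≤ n →
      heilbronn n ≤ C * (n : ℝ) ^ (-2 + ε)) := by
  obtain ⟨η, hη, c, hc, hmain⟩ := Vale.Agent.P036.plane_config
  have hne : ∀ P : Finset (ℝ × ℝ), 3 ≤ P.card →
      {a : ℝ | ∃ p ∈ P, ∃ q ∈ P, ∃ r ∈ P, p ≠ q ∧ p ≠ r ∧ q ≠ r ∧ a = area p q r}.Nonempty := by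
    intro P hP
    obtain ⟨p, q, r, hp, hq, hr, h1, h2, h3⟩ := Finset.two_lt_card_iff.1 (show 2 < P.card by omega)
    exact ⟨_, p, hp, q, hq, r, hr, h1, h2, h3, rfl⟩
  have hlow : ∀ n : ℕ, 3 ≤ n → c * (n : ℝ) ^ (-2 + η) ≤ heilbronn n := by
    intro n hn
    obtain ⟨P, hP1, hP2, hP3⟩ := hmain n (by omega)
    have hbdd : BddAbove {d : ℝ | ∃ P : Finset (ℝ × ℝ),
        (∀ p ∈ P, p.1 ∈ Set.Icc (0 : ℝ) 1 ∧ p.2 ∈ Set.Icc (0 : ℝ) 1) ∧ P.card = n ∧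
        d = minArea P} := by
      refine ⟨1, ?_⟩
      rintro d ⟨Q, hQ1, hQ2, rfl⟩
      obtain ⟨a, p, hp, q, hq, r, hr, h1, h2, h3, rfl⟩ := hne Q (by omega)
      refine le_trans (csInf_le ⟨0, ?_⟩ ⟨p, hp, q, hq, r, hr, h1, h2, h3, rfl⟩) ?_
      · rintro a ⟨p, _, q, _, r, _, _, _, _, rfl⟩
        unfold area
        positivity
      · obtain ⟨⟨a1, a2⟩, a3, a4⟩ := hQ1 p hp
        obtain ⟨⟨b1, b2⟩, b3, b4⟩ := hQ1 q hq
        obtain ⟨⟨c1, c2⟩, c3, c4⟩ := hQ1 r hr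
        have e1 : |(q.1 - p.1) * (r.2 - p.2)| ≤ 1 := by
          rw [abs_mul]
          exact mul_le_one₀ (abs_le.2 ⟨by linarith, by linarith⟩) (abs_nonneg _)
            (abs_le.2 ⟨by linarith, by linarith⟩)
        have e2 : |(q.2 - p.2) * (r.1 - p.1)| ≤ 1 := by
          rw [abs_mul]
          exact mul_le_one₀ (abs_le.2 ⟨by linarith, by linarith⟩) (abs_nonneg _)
            (abs_le.2 ⟨by linarith, by linarith⟩)
        have e3 := abs_sub ((q.1 - p.1) * (r.2 - p.2)) ((q.2 - p.2) * (r.1 - p.1))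
        unfold area
        linarith
    refine le_trans ?_ (le_csSup hbdd ⟨P, hP2, hP1, rfl⟩)
    apply le_csInf (hne P (by omega))
    rintro a ⟨p, hp, q, hq, r, hr, h1, h2, h3, rfl⟩
    exact hP3 p hp q hq r hr h1 h2 h3
  refine ⟨⟨η, hη, c, hc, fun n hn => ⟨hmain n (by omega), hlow n hn⟩⟩, fun hall => ?_⟩
  obtain ⟨C, n₀, hC⟩ := hall (η / 2) (by positivity)
  have ht : Filter.Tendsto (fun n : ℕ => c * (n : ℝ) ^ (η / 2)) Filter.atTop Filter.atTop :=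
    ((tendsto_rpow_atTop (by positivity)).comp tendsto_natCast_atTop_atTop).const_mul_atTop hc
  obtain ⟨n, hn1, hn2⟩ := ((ht.eventually_gt_atTop C).and
    (Filter.eventually_ge_atTop (max n₀ 3))).exists
  have hn3 : 3 ≤ n := le_trans (le_max_right _ _) hn2
  have hnpos : (0 : ℝ) < n := by exact_mod_cast (by omega : 0 < n)
  have h1 := (hlow n hn3).trans (hC n (le_trans (le_max_left _ _) hn2))
  have h2 : (n : ℝ) ^ (-2 + η) = (n : ℝ) ^ (η / 2) * (n : ℝ) ^ (-2 + η / 2) := by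
    rw [← Real.rpow_add hnpos]
    congr 1
    ring
  rw [h2, ← mul_assoc] at h1
  have h3 := le_of_mul_le_mul_right h1 (Real.rpow_pos_of_pos hnpos _)
  linarith

end Vale.Agent.Results.P036.PowerLowerBound
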